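import Vale.Agent.P011.H525.Wedd
import Vale.Agent.P011.H268.Nrd
import Mathlib.LinearAlgebra.Matrix.Charpoly.Eigs

/-!
# The reduced norm is a product of conjugates

`D` is a division algebra of dimension `n ^ 2` over its centre `K`.  For every `w` in `D` the
reduced norm of `w` is a product of `n` conjugates of `w`.
-/

open Polynomial Module

namespace Vale.Agent.P011.H525

variable {K D Ω : Type*} [Field K] [DivisionRing D] [Algebra K D] [Algebra.IsCentral K D]
  [FiniteDimensional K D] [Field Ω] [Algebra K Ω] {n : ℕ}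

omit [Algebra.IsCentral K D] [FiniteDimensional K D] in
/-- an irreducible factor of the reduced characteristic polynomial is the minimal polynomial -/
theorem dvd_minpoly_of_dvd_charpoly (f : D →ₐ[K] Matrix (Fin n) (Fin n) Ω) (w : D)
    {P q : K[X]} (hP : (f w).charpoly = P.map (algebraMap K Ω)) (hq : Irreducible q)
    (hqP : q ∣ P) : q ∣ minpoly K w := by
  by_contra hcon
  have hcop : IsCoprime q (minpoly K w) := (hq.coprime_iff_not_dvd).mpr hcon
  obtain ⟨a, b, hab⟩ := hcop
  -- `q (f w)` is invertible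
  have h1 : aeval (f w) a * aeval (f w) q = 1 := by
    have h2 : aeval (f w) (minpoly K w) = 0 := by
      rw [aeval_algHom_apply, minpoly.aeval, map_zero]
    have h3 := congrArg (aeval (f w)) hab
    rw [map_add, map_mul, map_mul, h2, mul_zero, add_zero, map_one] at h3
    exact h3
  -- a root of `q` is an eigenvalue
  let Ω' := AlgebraicClosure Ω
  let i : Ω →+* Ω' := algebraMap Ω Ω'
  let j : K →+* Ω' := i.comp (algebraMap K Ω)
  obtain ⟨α, hα⟩ : ∃ α : Ω', (q.map j).IsRoot α := by
    apply IsAlgClosed.exists_root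
    rw [degree_map]
    exact (degree_pos_of_irreducible hq).ne'
  have hPα : (P.map j).IsRoot α := hα.dvd (map_dvd j hqP)
  have hdet : (i.mapMatrix (f w) - Matrix.scalar (Fin n) α).det = 0 := by
    have h4 : (i.mapMatrix (f w)).charpoly.eval α = 0 := by
      rw [RingHom.mapMatrix_apply, Matrix.charpoly_map, hP, Polynomial.map_map]
      exact hPα
    rw [Matrix.eval_charpoly] at h4
    rw [← neg_sub, Matrix.det_neg, h4, mul_zero]
  have h5 : (X - C α) ∣ q.map j := dvd_iff_isRoot.mpr hα
  obtain ⟨q', hq'⟩ := h5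
  have h6 : aeval (i.mapMatrix (f w)) (q.map j) = i.mapMatrix (aeval (f w) q) := by
    rw [aeval_def, eval₂_map, aeval_def, hom_eval₂]
    congr 1
    ext c x y
    simp [j, i, Matrix.algebraMap_matrix_apply, Matrix.map_apply]
    split_ifs <;> simp
  have h7 : (i.mapMatrix (aeval (f w) q)).det = 0 := by
    rw [← h6, hq', map_mul, Matrix.det_mul, aeval_sub, aeval_X, aeval_C]
    have h8 : (algebraMap Ω' (Matrix (Fin n) (Fin n) Ω')) α = Matrix.scalar (Fin n) α := rfl
    rw [h8, hdet, zero_mul]
  have h9 : (i.mapMatrix (aeval (f w) a * aeval (f w) q)).det = 1 := by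
    rw [h1, map_one, Matrix.det_one]
  rw [map_mul, Matrix.det_mul, h7, mul_zero] at h9
  exact zero_ne_one h9

omit [Algebra.IsCentral K D] in
/-- the reduced characteristic polynomial is a power of the minimal polynomial -/
theorem charpoly_eq_pow (f : D →ₐ[K] Matrix (Fin n) (Fin n) Ω) (w : D)
    {P : K[X]} (hPm : P.Monic) (hP : (f w).charpoly = P.map (algebraMap K Ω)) :
    ∃ r : ℕ, P = minpoly K w ^ r := by
  have hw : IsIntegral K w := Algebra.IsIntegral.isIntegral w
  have hirr : Irreducible (minpoly K w) := minpoly.irreducible hw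
  have hmm : (minpoly K w).Monic := minpoly.monic hw
  have hfin : FiniteMultiplicity (minpoly K w) P :=
    FiniteMultiplicity.of_not_isUnit hirr.not_isUnit hPm.ne_zero
  obtain ⟨R, hR, hRn⟩ := hfin.exists_eq_pow_mul_and_not_dvd
  refine ⟨multiplicity (minpoly K w) P, ?_⟩
  have hRu : IsUnit R := by
    by_contra hRu
    have hR0 : R ≠ 0 := by
      rintro rfl
      exact hRn (dvd_zero _)
    obtain ⟨q, hq, hqR⟩ := WfDvdMonoid.exists_irreducible_factor hRu hR0
    have h1 : q ∣ minpoly K w :=
      dvd_minpoly_of_dvd_charpoly f w hP hq (hR ▸ Dvd.dvd.mul_left hqR _)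
    exact hRn ((hq.dvd_symm hirr h1).trans hqR)
  obtain ⟨c, hc, hcR⟩ := Polynomial.isUnit_iff.mp hRu
  have h2 : c = 1 := by
    have h3 := congrArg leadingCoeff hR
    rw [leadingCoeff_mul, (hmm.pow _).leadingCoeff, hPm.leadingCoeff, one_mul, ← hcR,
      leadingCoeff_C] at h3
    exact h3.symm
  rw [← hcR, h2, C_1, mul_one] at hR
  exact hR

theorem lp_append (l l' : List D) : lp (l ++ l') = lp l * lp l' := by
  simp [lp]

/-- **The reduced norm is a product of conjugates.** -/
theorem nrd_conj (hn : 0 < n) (hdeg : finrank K D = n ^ 2)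
    (f : D →ₐ[K] Matrix (Fin n) (Fin n) Ω) (w : D) {c : K}
    (hc : (f w).det = algebraMap K Ω c) : ∃ l : List Dˣ, l.length = n ∧
      algebraMap K D c = (l.map fun g : Dˣ => (g : D) * w * ((g⁻¹ : Dˣ) : D)).prod := by
  obtain ⟨P, hPm, hPd, hP⟩ := H268.exists_charpoly hn hdeg f w
  obtain ⟨r, hr⟩ := charpoly_eq_pow f w hPm hP
  obtain ⟨l, hl, hll⟩ := wedderburn (K := K) w (Algebra.IsIntegral.isIntegral w)
  have key : ∀ r : ℕ, ∃ l' : List Dˣ, l'.length = r * l.length ∧
      (minpoly K w ^ r).map (algebraMap K D) =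
        lp (l'.map fun g : Dˣ => (g : D) * w * ((g⁻¹ : Dˣ) : D)) := by
    intro r
    induction r with
    | zero => exact ⟨[], by simp, by simp⟩
    | succ r ih =>
      obtain ⟨l', hl', hll'⟩ := ih
      refine ⟨l' ++ l, by rw [List.length_append, hl']; ring, ?_⟩
      rw [pow_succ, Polynomial.map_mul, hll', hll, List.map_append, lp_append]
  obtain ⟨l', hl', hll'⟩ := key r
  have hlen : l'.length = n := by
    rw [hl', hl, ← hPd, hr, natDegree_pow]
  refine ⟨l', hlen, ?_⟩
  have h1 : c = (-1) ^ n * P.coeff 0 := by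
    apply (algebraMap K Ω).injective
    rw [← hc, Matrix.det_eq_sign_charpoly_coeff, hP, Polynomial.coeff_map]
    simp
  have h2 := congrArg (fun p : D[X] => p.coeff 0) hll'
  rw [← hr, coeff_map, lp_coeff_zero, List.length_map, hlen] at h2
  have h3 : ((-1 : D)) ^ n * (-1) ^ n = 1 := by
    rw [← pow_add, ← two_mul, pow_mul, neg_one_sq, one_pow]
  rw [h1, map_mul, h2, ← mul_assoc, map_pow, map_neg, map_one, h3, one_mul]

end Vale.Agent.P011.H525
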