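import Mathlib.Algebra.Central.Basic
import Mathlib.Algebra.Polynomial.Monic
import Mathlib.Algebra.Polynomial.Lifts
import Mathlib.FieldTheory.Minpoly.Field

/-!
# Wedderburn's factorization theorem

`D` is a division ring with centre `K` and `w` an element of `D` which is algebraic over `K`.
The minimal polynomial of `w` is a product of linear factors `X - w'`, every `w'` conjugate to `w`.
-/

open Polynomial

namespace Vale.Agent.P011.H525

section ring

variable {D : Type*} [DivisionRing D]

/-- the product formula for the evaluation with the coefficients on the left -/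
theorem eval_mul_conj (p q : D[X]) (x : D) (hq : q.eval x ≠ 0) :
    (p * q).eval x = p.eval (q.eval x * x * (q.eval x)⁻¹) * q.eval x := by
  have hpow : ∀ i : ℕ, (q.eval x * x * (q.eval x)⁻¹) ^ i * q.eval x = q.eval x * x ^ i := by
    intro i
    induction i with
    | zero => simp
    | succ i ih =>
      have h1 : q.eval x * x * (q.eval x)⁻¹ * q.eval x = q.eval x * x := by
        rw [mul_assoc, inv_mul_cancel₀ hq, mul_one]
      rw [pow_succ, mul_assoc, h1, ← mul_assoc, ih, mul_assoc, ← pow_succ]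
  induction p using Polynomial.induction_on' with
  | add p p' hp hp' => rw [add_mul, eval_add, eval_add, hp, hp', add_mul]
  | monomial i a =>
    rw [← C_mul_X_pow_eq_monomial, mul_assoc, eval_C_mul, X_pow_mul, eval_mul_X_pow,
      eval_mul_X_pow, eval_C, mul_assoc, hpow]

/-- division with remainder by `X - a` -/
theorem exists_div (p : D[X]) (a : D) : ∃ h : D[X], p = h * (X - C a) + C (p.eval a) := by
  have hmon : ∀ i : ℕ, ∃ h : D[X], (X : D[X]) ^ i = h * (X - C a) + C (a ^ i) := by
    intro i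
    induction i with
    | zero => exact ⟨0, by simp⟩
    | succ i ih =>
      obtain ⟨h, hh⟩ := ih
      refine ⟨X * h + C (a ^ i), ?_⟩
      have h1 : (X : D[X]) * C (a ^ i) = C (a ^ i) * X := X_mul_C _
      have h2 : C (a ^ (i + 1)) = C (a ^ i) * C a := by rw [← C_mul, ← pow_succ]
      rw [pow_succ', hh, mul_add, h1, add_mul, h2, mul_sub (C (a ^ i)), mul_assoc]
      abel
  induction p using Polynomial.induction_on' with
  | add p p' hp hp' =>
    obtain ⟨h, hh⟩ := hp
    obtain ⟨h', hh'⟩ := hp'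
    refine ⟨h + h', ?_⟩
    rw [eval_add, C_add, add_mul]
    nth_rewrite 1 [hh, hh']
    abel
  | monomial i b =>
    obtain ⟨h, hh⟩ := hmon i
    refine ⟨C b * h, ?_⟩
    rw [← C_mul_X_pow_eq_monomial, eval_mul_X_pow, eval_C]
    nth_rewrite 1 [hh]
    rw [mul_add, C_mul, mul_assoc]

/-- A root of a product which is not a root of the right factor is conjugate to a root of the left
factor. -/
theorem root_left {p q : D[X]} {x : D} (h : (p * q).eval x = 0) (hq : q.eval x ≠ 0) :
    p.eval (q.eval x * x * (q.eval x)⁻¹) = 0 := by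
  rw [eval_mul_conj p q x hq] at h
  exact (mul_eq_zero.mp h).resolve_right hq

end ring

section central

variable {K D : Type*} [Field K] [DivisionRing D] [Algebra K D] [Algebra.IsCentral K D]

/-- A nonzero polynomial vanishing on the conjugacy class of `w` has at least the degree of the
minimal polynomial of `w`. -/
theorem natDegree_le_of_class (w : D) (N : ℕ) : ∀ g : D[X], g ≠ 0 → g.natDegree = N →
    (∀ d : Dˣ, g.eval ((d : D) * w * ((d⁻¹ : Dˣ) : D)) = 0) → (minpoly K w).natDegree ≤ N := by
  induction N using Nat.strong_induction_on with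
  | _ N ih =>
  intro g hg0 hn hg
  -- make it monic
  obtain ⟨g', hg'm, hg'd, hg'⟩ : ∃ g' : D[X], g'.Monic ∧ g'.natDegree = N ∧
      ∀ d : Dˣ, g'.eval ((d : D) * w * ((d⁻¹ : Dˣ) : D)) = 0 := by
    have hlc : g.leadingCoeff ≠ 0 := leadingCoeff_ne_zero.mpr hg0
    refine ⟨C (g.leadingCoeff)⁻¹ * g, ?_, ?_, fun d => ?_⟩
    · rw [Monic, leadingCoeff_mul, leadingCoeff_C, inv_mul_cancel₀ hlc]
    · rw [natDegree_C_mul (inv_ne_zero hlc), hn]
    · rw [eval_C_mul, hg d, mul_zero]
  by_cases hcomm : ∀ d : Dˣ, C (d : D) * g' = g' * C (d : D)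
  · -- the coefficients are central
    have hcen : ∀ i, g'.coeff i ∈ Set.range (algebraMap K D) := by
      intro i
      have h1 : g'.coeff i ∈ Subalgebra.center K D := by
        rw [Subalgebra.mem_center_iff]
        intro b
        by_cases hb : b = 0
        · rw [hb, zero_mul, mul_zero]
        · have h2 := congrArg (fun p : D[X] => p.coeff i) (hcomm (Units.mk0 b hb))
          simpa [coeff_C_mul, coeff_mul_C] using h2
      rw [Algebra.IsCentral.center_eq_bot, Algebra.mem_bot] at h1
      exact h1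
    obtain ⟨p, hp⟩ := (mem_lifts g').mp ((lifts_iff_coeff_lifts g').mpr hcen)
    have hp' : p.map (algebraMap K D) = g' := by simpa using hp
    have h3 : aeval w p = 0 := by
      have h4 := hg' 1
      rw [Units.val_one, one_mul, inv_one, Units.val_one, mul_one, ← hp', eval_map_algebraMap]
        at h4
      exact h4
    have hp0 : p ≠ 0 := by
      rintro rfl
      rw [Polynomial.map_zero] at hp'
      exact hg'm.ne_zero hp'.symm
    have h5 := natDegree_le_of_dvd (minpoly.dvd K w h3) hp0
    have h6 : p.natDegree = N := by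
      rw [← hg'd, ← hp', natDegree_map]
    exact h5.trans h6.le
  · push Not at hcomm
    obtain ⟨d, hne⟩ := hcomm
    have hu : (C (d : D) * g' * C ((d⁻¹ : Dˣ) : D)).Monic := by
      rw [Monic, leadingCoeff_mul, leadingCoeff_mul, leadingCoeff_C, leadingCoeff_C,
        hg'm.leadingCoeff, mul_one, Units.mul_inv]
    have hud : (C (d : D) * g' * C ((d⁻¹ : Dˣ) : D)).natDegree = N := by
      rw [natDegree_mul_C (Units.ne_zero _), natDegree_C_mul (Units.ne_zero _), hg'd]
    have hdiff : g' - C (d : D) * g' * C ((d⁻¹ : Dˣ) : D) ≠ 0 := by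
      intro h0
      apply hne
      have h1 : g' = C (d : D) * g' * C ((d⁻¹ : Dˣ) : D) := sub_eq_zero.mp h0
      have h2 : C ((d⁻¹ : Dˣ) : D) * C (d : D) = (1 : D[X]) := by
        rw [← C_mul, Units.inv_mul, C_1]
      calc C (d : D) * g' = C (d : D) * g' * (C ((d⁻¹ : Dˣ) : D) * C (d : D)) := by
            rw [h2, mul_one]
        _ = (C (d : D) * g' * C ((d⁻¹ : Dˣ) : D)) * C (d : D) :=
            (mul_assoc (C (d : D) * g') (C ((d⁻¹ : Dˣ) : D)) (C (d : D))).symm
        _ = g' * C (d : D) := by rw [← h1]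
    have hev : ∀ e : Dˣ, (g' - C (d : D) * g' * C ((d⁻¹ : Dˣ) : D)).eval
        ((e : D) * w * ((e⁻¹ : Dˣ) : D)) = 0 := by
      intro e
      have h0 : (C ((d⁻¹ : Dˣ) : D)).eval ((e : D) * w * ((e⁻¹ : Dˣ) : D)) =
          ((d⁻¹ : Dˣ) : D) := eval_C
      rw [eval_sub, hg' e, zero_sub, neg_eq_zero, eval_mul_conj _ _ _ (by
        rw [h0]; exact Units.ne_zero _), h0, eval_C_mul]
      have h3 : ((d⁻¹ : Dˣ) : D) * ((e : D) * w * ((e⁻¹ : Dˣ) : D)) * (((d⁻¹ : Dˣ) : D))⁻¹
          = (((d⁻¹ * e : Dˣ)) : D) * w * (((d⁻¹ * e)⁻¹ : Dˣ) : D) := by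
        rw [mul_inv_rev, Units.val_mul, Units.val_mul, inv_inv, ← Units.val_inv_eq_inv_val,
          inv_inv]
        simp only [mul_assoc]
      rw [h3, hg', mul_zero, zero_mul]
    have hlt : (g' - C (d : D) * g' * C ((d⁻¹ : Dˣ) : D)).natDegree < N := by
      have h5 := degree_sub_lt_left (p := g') (q := C (d : D) * g' * C ((d⁻¹ : Dˣ) : D))
        (by rw [degree_eq_natDegree hg'm.ne_zero, degree_eq_natDegree hu.ne_zero, hg'd, hud])
        hg'm.ne_zero (by rw [hg'm.leadingCoeff, hu.leadingCoeff])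
      rw [degree_eq_natDegree hdiff, degree_eq_natDegree hg'm.ne_zero, hg'd] at h5
      exact_mod_cast h5
    exact (ih _ hlt _ hdiff rfl hev).trans hlt.le

/-- the product `(X - C w_k) ... (X - C w_1)` of the list `[w_k, ..., w_1]` -/
noncomputable def lp (l : List D) : D[X] := (l.map fun a => X - C a).prod

@[simp] theorem lp_nil : lp ([] : List D) = 1 := rfl

theorem lp_cons (a : D) (l : List D) : lp (a :: l) = (X - C a) * lp l := by
  rw [lp, List.map_cons, List.prod_cons, lp]

theorem lp_monic (l : List D) : (lp l).Monic := by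
  induction l with
  | nil => rw [lp_nil]; exact monic_one
  | cons a l ih => rw [lp_cons]; exact (monic_X_sub_C a).mul ih

theorem lp_natDegree (l : List D) : (lp l).natDegree = l.length := by
  induction l with
  | nil => rw [lp_nil, natDegree_one, List.length_nil]
  | cons a l ih =>
    rw [lp_cons, (monic_X_sub_C a).natDegree_mul (lp_monic l), natDegree_X_sub_C, ih,
      List.length_cons, add_comm]

theorem lp_coeff_zero (l : List D) : (lp l).coeff 0 = (-1) ^ l.length * l.prod := by
  induction l with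
  | nil => simp
  | cons a l ih =>
    rw [lp_cons, mul_coeff_zero, ih, coeff_sub, coeff_X_zero, coeff_C_zero, zero_sub,
      List.length_cons, List.prod_cons, pow_succ, neg_mul, mul_assoc, neg_one_mul, mul_neg]
    congr 1
    rcases Nat.even_or_odd l.length with h | h
    · rw [h.neg_one_pow, one_mul, one_mul]
    · rw [h.neg_one_pow, neg_one_mul, neg_one_mul, mul_neg]

/-- **Wedderburn's factorization theorem** -/
theorem wedderburn (w : D) (hw : IsIntegral K w) : ∃ l : List Dˣ,
    l.length = (minpoly K w).natDegree ∧ (minpoly K w).map (algebraMap K D) =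
      lp (l.map fun g : Dˣ => (g : D) * w * ((g⁻¹ : Dˣ) : D)) := by
  set f : D[X] := (minpoly K w).map (algebraMap K D) with hf
  have hfm : f.Monic := (minpoly.monic hw).map _
  have hfd : f.natDegree = (minpoly K w).natDegree := natDegree_map _
  have hfev : ∀ d : Dˣ, f.eval ((d : D) * w * ((d⁻¹ : Dˣ) : D)) = 0 := by
    intro d
    rw [hf, eval_map_algebraMap]
    have h1 : aeval ((d : D) * w * ((d⁻¹ : Dˣ) : D)) (minpoly K w) =
        (d : D) * aeval w (minpoly K w) * ((d⁻¹ : Dˣ) : D) := by
      rw [aeval_eq_sum_range, aeval_eq_sum_range, Finset.mul_sum, Finset.sum_mul]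
      refine Finset.sum_congr rfl fun i _ => ?_
      rw [Units.conj_pow, mul_smul_comm, smul_mul_assoc]
    rw [h1, minpoly.aeval, mul_zero, zero_mul]
  have key : ∀ k, k ≤ (minpoly K w).natDegree → ∃ (l : List Dˣ) (h : D[X]), l.length = k ∧
      f = h * lp (l.map fun g : Dˣ => (g : D) * w * ((g⁻¹ : Dˣ) : D)) := by
    intro k
    induction k with
    | zero => exact fun _ => ⟨[], f, rfl, by rw [List.map_nil, lp_nil, mul_one]⟩
    | succ k ih =>
      intro hk
      obtain ⟨l, h, hl, hh⟩ := ih (Nat.le_of_succ_le hk)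
      obtain ⟨g, hg⟩ : ∃ g : D[X], g = lp (l.map fun g : Dˣ => (g : D) * w * ((g⁻¹ : Dˣ) : D)) :=
        ⟨_, rfl⟩
      rw [← hg] at hh
      have hgd : g.natDegree = k := by rw [hg, lp_natDegree, List.length_map, hl]
      have hex : ∃ d : Dˣ, g.eval ((d : D) * w * ((d⁻¹ : Dˣ) : D)) ≠ 0 := by
        by_contra hcon
        push Not at hcon
        have h1 := natDegree_le_of_class (K := K) w k g (by rw [hg]; exact (lp_monic _).ne_zero)
          hgd hcon
        omega
      obtain ⟨d, hd⟩ := hex
      have h2 : (h * g).eval ((d : D) * w * ((d⁻¹ : Dˣ) : D)) = 0 := by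
        rw [← hh]; exact hfev d
      have h3 := root_left h2 hd
      obtain ⟨e, he⟩ : ∃ e : Dˣ, (e : D) = g.eval ((d : D) * w * ((d⁻¹ : Dˣ) : D)) :=
        ⟨Units.mk0 _ hd, rfl⟩
      rw [← he] at h3
      obtain ⟨h', hh'⟩ := exists_div h ((e : D) * ((d : D) * w * ((d⁻¹ : Dˣ) : D)) * (e : D)⁻¹)
      rw [h3, C_0, add_zero] at hh'
      refine ⟨(e * d) :: l, h', by rw [List.length_cons, hl], ?_⟩
      have h4 : (((e * d : Dˣ)) : D) * w * (((e * d)⁻¹ : Dˣ) : D) =
          (e : D) * ((d : D) * w * ((d⁻¹ : Dˣ) : D)) * (e : D)⁻¹ := by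
        rw [mul_inv_rev, Units.val_mul, Units.val_mul, ← Units.val_inv_eq_inv_val]
        simp only [mul_assoc]
      rw [List.map_cons, lp_cons, ← hg, h4, ← mul_assoc, ← hh']
      exact hh
  obtain ⟨l, h, hl, hh⟩ := key _ le_rfl
  refine ⟨l, hl, ?_⟩
  obtain ⟨g, hg⟩ : ∃ g : D[X], g = lp (l.map fun g : Dˣ => (g : D) * w * ((g⁻¹ : Dˣ) : D)) :=
    ⟨_, rfl⟩
  rw [← hg] at hh ⊢
  have hgm : g.Monic := by rw [hg]; exact lp_monic _
  have hgd : g.natDegree = (minpoly K w).natDegree := by
    rw [hg, lp_natDegree, List.length_map, hl]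
  have hh0 : h ≠ 0 := by
    rintro rfl
    rw [zero_mul] at hh
    exact hfm.ne_zero hh
  have h5 : h.natDegree = 0 := by
    have h6 := natDegree_mul hh0 hgm.ne_zero
    rw [← hh, hfd, hgd] at h6
    omega
  have h7 : h.leadingCoeff = 1 := by
    have h8 := leadingCoeff_mul h g
    rw [← hh, hfm.leadingCoeff, hgm.leadingCoeff, mul_one] at h8
    exact h8.symm
  have h9 : h = 1 := by
    rw [eq_C_of_natDegree_eq_zero h5]
    rw [leadingCoeff, h5] at h7
    rw [h7, C_1]
  rw [h9, one_mul] at hh
  exact hh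

end central

end Vale.Agent.P011.H525
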